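import Mathlib

/-!
# Boolean functions on the cube: signs and Fourier coefficients (definitions, seat H39)
-/

namespace Vale.Agent.H39

/-- The sign of a bit: `false ↦ 1`, `true ↦ -1`. -/
def bsign (b : Bool) : ℝ := if b then -1 else 1

/-- The Fourier coefficient `f^(S) = 2^(-n) ∑_x sign(f x) ∏_{i ∈ S} sign(x_i)` of a Boolean
function `f` on the cube `Fin n → Bool`, values and bits read as signs. -/
noncomputable def fhat {n : ℕ} (f : (Fin n → Bool) → Bool) (S : Finset (Fin n)) : ℝ :=
  (∑ x : Fin n → Bool, bsign (f x) * ∏ i ∈ S, bsign (x i)) / 2 ^ n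

end Vale.Agent.H39
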