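import Vale.Agent.H39.CubeDefs

/-!
# The bias polynomial of a Boolean function and a Bernstein-type inequality (seat H39)

For `F : (Fin n → Bool) → ℝ` and a bias `ρ`, the measure `μ_ρ` gives the point `x` the weight
`∏_i (1 + ρ sign(x_i))/2`.  We expand `F` in the basis `φ_T = ∏_{i ∈ T} (sign(x_i) - ρ)`,
orthogonal for `μ_ρ`, and deduce for a Boolean function of degree at most `d`
`|P'(ρ)| (1 - ρ²) ≤ d (1 - P(ρ)²)`, where `P(ρ) = E_ρ[f] = ∑_S f^(S) ρ^|S|`.
-/

namespace Vale.Agent.H39

open Finset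

section basics

variable {n : ℕ}

@[simp] lemma bsign_false : bsign false = 1 := rfl
@[simp] lemma bsign_true : bsign true = -1 := rfl

lemma bsign_mul_self (b : Bool) : bsign b * bsign b = 1 := by cases b <;> simp

lemma bsign_mul_eq (a b : Bool) : bsign a * bsign b = if a = b then 1 else -1 := by
  cases a <;> cases b <;> simp

/-- The character `χ_S(x) = ∏_{i ∈ S} sign(x_i)`. -/
def chi (S : Finset (Fin n)) (x : Fin n → Bool) : ℝ := ∏ i ∈ S, bsign (x i)

/-- Fourier coefficient of a real function on the cube. -/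
noncomputable def coef (F : (Fin n → Bool) → ℝ) (S : Finset (Fin n)) : ℝ :=
  (∑ x : Fin n → Bool, F x * chi S x) / 2 ^ n

lemma fhat_eq_coef (f : (Fin n → Bool) → Bool) (S : Finset (Fin n)) :
    fhat f S = coef (fun x => bsign (f x)) S := rfl

/-- Sum over the cube of a product function. -/
lemma sum_cube_prod (h : Fin n → Bool → ℝ) :
    ∑ x : Fin n → Bool, ∏ i, h i (x i) = ∏ i, (h i false + h i true) := by
  rw [← Fintype.prod_sum]
  apply Finset.prod_congr rfl
  intro i _
  rw [Fintype.sum_bool, add_comm]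

lemma sum_chi_mul_chi (x y : Fin n → Bool) :
    ∑ S : Finset (Fin n), chi S x * chi S y = if x = y then (2 : ℝ) ^ n else 0 := by
  have h1 : ∑ S : Finset (Fin n), chi S x * chi S y = ∏ i : Fin n, (1 + bsign (x i) * bsign (y i)) := by
    rw [Finset.prod_one_add, Finset.powerset_univ]
    apply Finset.sum_congr rfl
    intro S _
    simp [chi, Finset.prod_mul_distrib]
  rw [h1]
  split_ifs with h
  · subst h
    simp [bsign_mul_self]
    norm_num
  · obtain ⟨i, hi⟩ := Function.ne_iff.mp h
    apply Finset.prod_eq_zero (Finset.mem_univ i)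
    rw [bsign_mul_eq, if_neg hi]
    norm_num

/-- Fourier inversion on the cube. -/
lemma coef_inversion (F : (Fin n → Bool) → ℝ) (x : Fin n → Bool) :
    F x = ∑ S : Finset (Fin n), coef F S * chi S x := by
  have hpos : (2 : ℝ) ^ n ≠ 0 := by positivity
  have : ∑ S : Finset (Fin n), coef F S * chi S x
      = (∑ y : Fin n → Bool, F y * ∑ S : Finset (Fin n), chi S y * chi S x) / 2 ^ n := by
    simp only [coef, div_mul_eq_mul_div, ← Finset.sum_div, Finset.sum_mul, Finset.mul_sum]
    rw [Finset.sum_comm]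
    congr 1
    refine Finset.sum_congr rfl (fun y _ => Finset.sum_congr rfl (fun S _ => ?_))
    ring
  rw [this]
  simp only [sum_chi_mul_chi, mul_ite, mul_zero, Finset.sum_ite_eq', Finset.mem_univ, if_true]
  field_simp

/-- The weight of the point `x` under the product measure with bias `ρ`. -/
noncomputable def wt (ρ : ℝ) (x : Fin n → Bool) : ℝ := ∏ i, (1 + ρ * bsign (x i)) / 2

/-- Expectation under the product measure with bias `ρ`. -/
noncomputable def Ebias (ρ : ℝ) (G : (Fin n → Bool) → ℝ) : ℝ := ∑ x : Fin n → Bool, wt ρ x * G x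

/-- The shifted characters `φ_T(x) = ∏_{i ∈ T} (sign(x_i) - ρ)`. -/
def phi (ρ : ℝ) (T : Finset (Fin n)) (x : Fin n → Bool) : ℝ := ∏ i ∈ T, (bsign (x i) - ρ)

lemma wt_nonneg {ρ : ℝ} (hρ : |ρ| ≤ 1) (x : Fin n → Bool) : 0 ≤ wt ρ x := by
  apply Finset.prod_nonneg
  intro i _
  have := abs_le.mp hρ
  cases x i <;> simp <;> linarith

lemma wt_pos {ρ : ℝ} (hρ : |ρ| < 1) (x : Fin n → Bool) : 0 < wt ρ x := by
  apply Finset.prod_pos
  intro i _
  have := abs_lt.mp hρ
  cases x i <;> simp <;> linarith

lemma sum_wt (ρ : ℝ) : ∑ x : Fin n → Bool, wt ρ x = 1 := by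
  unfold wt
  rw [sum_cube_prod (fun _ b => (1 + ρ * bsign b) / 2)]
  apply Finset.prod_eq_one
  intro i _
  simp
  ring

lemma phi_eq_prod_univ (ρ : ℝ) (T : Finset (Fin n)) (x : Fin n → Bool) :
    phi ρ T x = ∏ i, if i ∈ T then (bsign (x i) - ρ) else 1 := by
  rw [phi, Finset.prod_ite_mem, Finset.univ_inter]

/-- Orthogonality of the shifted characters under the biased measure. -/
lemma Ebias_phi_mul_phi (ρ : ℝ) (S T : Finset (Fin n)) :
    Ebias ρ (fun x => phi ρ S x * phi ρ T x) = if S = T then (1 - ρ ^ 2) ^ S.card else 0 := by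
  have h1 : ∀ x : Fin n → Bool, wt ρ x * (phi ρ S x * phi ρ T x)
      = ∏ i, ((1 + ρ * bsign (x i)) / 2 * ((if i ∈ S then (bsign (x i) - ρ) else 1)
          * (if i ∈ T then (bsign (x i) - ρ) else 1))) := by
    intro x
    rw [phi_eq_prod_univ, phi_eq_prod_univ, wt, ← Finset.prod_mul_distrib, ← Finset.prod_mul_distrib]
  unfold Ebias
  simp_rw [h1]
  rw [sum_cube_prod (fun i b => (1 + ρ * bsign b) / 2 * ((if i ∈ S then (bsign b - ρ) else 1)
          * (if i ∈ T then (bsign b - ρ) else 1)))]
  split_ifs with h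
  · subst h
    have h2 : ∀ i : Fin n, ((1 + ρ * bsign false) / 2 * ((if i ∈ S then (bsign false - ρ) else 1)
          * (if i ∈ S then (bsign false - ρ) else 1))
        + (1 + ρ * bsign true) / 2 * ((if i ∈ S then (bsign true - ρ) else 1)
          * (if i ∈ S then (bsign true - ρ) else 1))) = if i ∈ S then (1 - ρ ^ 2) else 1 := by
      intro i
      split_ifs <;> simp <;> ring
    simp_rw [h2]
    rw [Finset.prod_ite_mem, Finset.univ_inter, Finset.prod_const]
  · have : ∃ i, ¬ (i ∈ S ↔ i ∈ T) := by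
      by_contra hcon
      push Not at hcon
      exact h (Finset.ext hcon)
    obtain ⟨i, hi⟩ := this
    apply Finset.prod_eq_zero (Finset.mem_univ i)
    by_cases hS : i ∈ S <;> by_cases hT : i ∈ T
    · exact absurd (iff_of_true hS hT) hi
    · simp [hS, hT]
      ring
    · simp [hS, hT]
      ring
    · exact absurd (iff_of_false hS hT) hi

/-- Coefficients of `F` in the basis of shifted characters. -/
noncomputable def bcoef (F : (Fin n → Bool) → ℝ) (ρ : ℝ) (T : Finset (Fin n)) : ℝ :=
  ∑ S : Finset (Fin n), if T ⊆ S then coef F S * ρ ^ (S \ T).card else 0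

lemma chi_eq_sum_phi (ρ : ℝ) (S : Finset (Fin n)) (x : Fin n → Bool) :
    chi S x = ∑ T : Finset (Fin n), if T ⊆ S then ρ ^ (S \ T).card * phi ρ T x else 0 := by
  have h : chi S x = ∏ i ∈ S, ((bsign (x i) - ρ) + ρ) := by simp [chi]
  rw [h, Finset.prod_add]
  have h2 : ∀ T : Finset (Fin n), (if T ⊆ S then ρ ^ (S \ T).card * phi ρ T x else 0)
      = if T ∈ S.powerset then ρ ^ (S \ T).card * phi ρ T x else 0 := by
    intro T
    simp [Finset.mem_powerset]
  simp_rw [h2]
  rw [Finset.sum_ite_mem, Finset.univ_inter]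
  apply Finset.sum_congr rfl
  intro T _
  rw [Finset.prod_const, phi]
  ring

/-- Expansion of `F` in the basis of shifted characters. -/
lemma expansion (F : (Fin n → Bool) → ℝ) (ρ : ℝ) (x : Fin n → Bool) :
    F x = ∑ T : Finset (Fin n), bcoef F ρ T * phi ρ T x := by
  rw [coef_inversion F x]
  simp_rw [chi_eq_sum_phi ρ, Finset.mul_sum]
  rw [Finset.sum_comm]
  apply Finset.sum_congr rfl
  intro T _
  rw [bcoef, Finset.sum_mul]
  apply Finset.sum_congr rfl
  intro S _
  split_ifs <;> ring

lemma bcoef_eq_zero {F : (Fin n → Bool) → ℝ} {d : ℕ}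
    (hdeg : ∀ S : Finset (Fin n), d < S.card → coef F S = 0) (ρ : ℝ)
    {T : Finset (Fin n)} (hT : d < T.card) : bcoef F ρ T = 0 := by
  apply Finset.sum_eq_zero
  intro S _
  split_ifs with h
  · rw [hdeg S (lt_of_lt_of_le hT (Finset.card_le_card h)), zero_mul]
  · rfl

/-- Parseval identity for an expansion in shifted characters along an index map that is injective
on the support of the coefficients. -/
lemma Ebias_sq_expansion (ρ : ℝ) (a : Finset (Fin n) → ℝ)
    (e : Finset (Fin n) → Finset (Fin n))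
    (hinj : ∀ T T' : Finset (Fin n), a T ≠ 0 → a T' ≠ 0 → e T = e T' → T = T') :
    Ebias ρ (fun x => (∑ T : Finset (Fin n), a T * phi ρ (e T) x) ^ 2)
      = ∑ T : Finset (Fin n), a T ^ 2 * (1 - ρ ^ 2) ^ (e T).card := by
  have h1 : ∀ x : Fin n → Bool, wt ρ x * (∑ T : Finset (Fin n), a T * phi ρ (e T) x) ^ 2
      = ∑ T : Finset (Fin n), ∑ T' : Finset (Fin n),
          a T * a T' * (wt ρ x * (phi ρ (e T) x * phi ρ (e T') x)) := by
    intro x
    rw [sq, Finset.sum_mul_sum, Finset.mul_sum]
    apply Finset.sum_congr rfl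
    intro T _
    rw [Finset.mul_sum]
    apply Finset.sum_congr rfl
    intro T' _
    ring
  unfold Ebias
  simp_rw [h1]
  rw [Finset.sum_comm]
  apply Finset.sum_congr rfl
  intro T _
  rw [Finset.sum_comm]
  have h2 : ∀ T' : Finset (Fin n),
      ∑ x : Fin n → Bool, a T * a T' * (wt ρ x * (phi ρ (e T) x * phi ρ (e T') x))
        = a T * a T' * (if e T = e T' then (1 - ρ ^ 2) ^ (e T).card else 0) := by
    intro T'
    rw [← Finset.mul_sum]
    congr 1
    exact Ebias_phi_mul_phi ρ (e T) (e T')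
  simp_rw [h2]
  rw [Finset.sum_eq_single T]
  · rw [if_pos rfl]
    ring
  · intro T' _ hne
    by_cases haT : a T = 0
    · rw [haT]
      ring
    · by_cases haT' : a T' = 0
      · rw [haT']
        ring
      · rw [if_neg (fun he => hne (hinj T T' haT haT' he).symm), mul_zero]
  · intro h
    exact absurd (Finset.mem_univ T) h

lemma Ebias_phi (ρ : ℝ) (U : Finset (Fin n)) :
    Ebias ρ (phi ρ U) = if U = ∅ then 1 else 0 := by
  have h := Ebias_phi_mul_phi ρ U ∅
  have h2 : (fun x : Fin n → Bool => phi ρ U x * phi ρ ∅ x) = phi ρ U := by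
    funext x
    simp [phi]
  rw [h2] at h
  rw [h]
  split_ifs with hU
  · rw [hU]
    simp
  · rfl

/-- The mean of an expansion in shifted characters. -/
lemma Ebias_expansion (ρ : ℝ) (a : Finset (Fin n) → ℝ) (e : Finset (Fin n) → Finset (Fin n)) :
    Ebias ρ (fun x => ∑ T : Finset (Fin n), a T * phi ρ (e T) x)
      = ∑ T : Finset (Fin n), if e T = ∅ then a T else 0 := by
  unfold Ebias
  simp_rw [Finset.mul_sum]
  rw [Finset.sum_comm]
  apply Finset.sum_congr rfl
  intro T _
  have h : ∑ x : Fin n → Bool, wt ρ x * (a T * phi ρ (e T) x) = a T * Ebias ρ (phi ρ (e T)) := by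
    unfold Ebias
    rw [Finset.mul_sum]
    apply Finset.sum_congr rfl
    intro x _
    ring
  rw [h, Ebias_phi]
  split_ifs <;> ring

/-- The discrete derivative in direction `i`:
`(F(x with sign +1 at i) - F(x with sign -1 at i)) / 2`. -/
noncomputable def dcube (i : Fin n) (F : (Fin n → Bool) → ℝ) (x : Fin n → Bool) : ℝ :=
  (F (Function.update x i false) - F (Function.update x i true)) / 2

lemma phi_update (ρ : ℝ) (T : Finset (Fin n)) (i : Fin n) (x : Fin n → Bool) (b : Bool) :
    phi ρ T (Function.update x i b)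
      = if i ∈ T then (bsign b - ρ) * phi ρ (T.erase i) x else phi ρ T x := by
  split_ifs with h
  · rw [phi, ← Finset.mul_prod_erase T _ h, Function.update_self, phi]
    congr 1
    apply Finset.prod_congr rfl
    intro j hj
    rw [Function.update_of_ne (Finset.ne_of_mem_erase hj)]
  · rw [phi, phi]
    apply Finset.prod_congr rfl
    intro j hj
    rw [Function.update_of_ne (fun hji => h (by rw [← hji]; exact hj))]

/-- Expansion of the discrete derivative in shifted characters. -/
lemma dcube_expansion (F : (Fin n → Bool) → ℝ) (ρ : ℝ) (i : Fin n) (x : Fin n → Bool) :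
    dcube i F x
      = ∑ T : Finset (Fin n), (if i ∈ T then bcoef F ρ T else 0) * phi ρ (T.erase i) x := by
  rw [dcube, expansion F ρ (Function.update x i false), expansion F ρ (Function.update x i true),
    ← Finset.sum_sub_distrib, Finset.sum_div]
  apply Finset.sum_congr rfl
  intro T _
  rw [phi_update, phi_update]
  split_ifs
  · simp
    ring
  · ring

lemma Ebias_dcube_sq (F : (Fin n → Bool) → ℝ) (ρ : ℝ) (i : Fin n) :
    Ebias ρ (fun x => (dcube i F x) ^ 2)
      = ∑ T : Finset (Fin n),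
          (if i ∈ T then bcoef F ρ T else 0) ^ 2 * (1 - ρ ^ 2) ^ (T.erase i).card := by
  simp_rw [dcube_expansion F ρ i]
  apply Ebias_sq_expansion
  intro T T' hT hT' he
  have hi : i ∈ T := by
    by_contra h
    exact hT (if_neg h)
  have hi' : i ∈ T' := by
    by_contra h
    exact hT' (if_neg h)
  rw [← Finset.insert_erase hi, ← Finset.insert_erase hi', he]

lemma Ebias_dcube (F : (Fin n → Bool) → ℝ) (ρ : ℝ) (i : Fin n) :
    Ebias ρ (dcube i F) = bcoef F ρ {i} := by
  have h : dcube i F = fun x => ∑ T : Finset (Fin n),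
      (if i ∈ T then bcoef F ρ T else 0) * phi ρ (T.erase i) x := by
    funext x
    exact dcube_expansion F ρ i x
  rw [h, Ebias_expansion, Finset.sum_eq_single {i}]
  · simp
  · intro T _ hne
    split_ifs with h1 h2
    · exfalso
      apply hne
      rw [← Finset.insert_erase h2, h1]
      rfl
    · rfl
    · rfl
  · intro h
    exact absurd (Finset.mem_univ _) h

/-- Parseval identity for `F` under the biased measure. -/
lemma Ebias_sq (F : (Fin n → Bool) → ℝ) (ρ : ℝ) :
    Ebias ρ (fun x => (F x) ^ 2)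
      = ∑ T : Finset (Fin n), bcoef F ρ T ^ 2 * (1 - ρ ^ 2) ^ T.card := by
  have h : (fun x => (F x) ^ 2)
      = fun x => (∑ T : Finset (Fin n), bcoef F ρ T * phi ρ (id T) x) ^ 2 := by
    funext x
    rw [expansion F ρ x]
    rfl
  rw [h, Ebias_sq_expansion ρ (bcoef F ρ) id (fun T T' _ _ he => he)]
  rfl

lemma Ebias_eq_bcoef_empty (F : (Fin n → Bool) → ℝ) (ρ : ℝ) :
    Ebias ρ F = bcoef F ρ ∅ := by
  have key : Ebias ρ F
      = Ebias ρ (fun x => ∑ T : Finset (Fin n), bcoef F ρ T * phi ρ (id T) x) := by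
    congr 1
    funext x
    exact expansion F ρ x
  rw [key, Ebias_expansion, Finset.sum_eq_single ∅]
  · simp
  · intro T _ hne
    simp [hne]
  · intro h
    exact absurd (Finset.mem_univ _) h

end basics

section boolean

variable {n : ℕ}

/-- For a sign-valued function the mean of a discrete derivative is at most its second moment. -/
lemma abs_Ebias_dcube_le {F : (Fin n → Bool) → ℝ} (hF : ∀ x, F x = 1 ∨ F x = -1) {ρ : ℝ}
    (hρ : |ρ| ≤ 1) (i : Fin n) :
    |Ebias ρ (dcube i F)| ≤ Ebias ρ (fun x => (dcube i F x) ^ 2) := by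
  unfold Ebias
  calc |∑ x : Fin n → Bool, wt ρ x * dcube i F x|
      ≤ ∑ x : Fin n → Bool, |wt ρ x * dcube i F x| := Finset.abs_sum_le_sum_abs _ _
    _ = ∑ x : Fin n → Bool, wt ρ x * (dcube i F x) ^ 2 := by
        apply Finset.sum_congr rfl
        intro x _
        rw [abs_mul, abs_of_nonneg (wt_nonneg hρ x)]
        congr 1
        unfold dcube
        rcases hF (Function.update x i false) with h1 | h1 <;>
          rcases hF (Function.update x i true) with h2 | h2 <;> rw [h1, h2] <;> norm_num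

/-- The bias polynomial `P(ρ) = ∑_S F^(S) ρ^|S|`, the mean of `F` under the measure of bias `ρ`. -/
noncomputable def biasPoly (F : (Fin n → Bool) → ℝ) : Polynomial ℝ :=
  ∑ S : Finset (Fin n), Polynomial.C (coef F S) * Polynomial.X ^ S.card

lemma biasPoly_eval (F : (Fin n → Bool) → ℝ) (ρ : ℝ) :
    (biasPoly F).eval ρ = bcoef F ρ ∅ := by
  simp [biasPoly, bcoef, Polynomial.eval_finsetSum]

lemma biasPoly_derivative_eval (F : (Fin n → Bool) → ℝ) (ρ : ℝ) :
    (biasPoly F).derivative.eval ρ = ∑ i : Fin n, bcoef F ρ {i} := by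
  simp only [biasPoly, Polynomial.derivative_sum, Polynomial.eval_finsetSum,
    Polynomial.derivative_C_mul_X_pow, Polynomial.eval_mul, Polynomial.eval_C,
    Polynomial.eval_pow, Polynomial.eval_X]
  unfold bcoef
  rw [Finset.sum_comm]
  apply Finset.sum_congr rfl
  intro S _
  have h : ∀ i : Fin n, (if {i} ⊆ S then coef F S * ρ ^ (S \ {i}).card else 0)
      = if i ∈ S then coef F S * ρ ^ (S.card - 1) else 0 := by
    intro i
    by_cases hi : i ∈ S
    · rw [if_pos (Finset.singleton_subset_iff.mpr hi), if_pos hi, Finset.sdiff_singleton_eq_erase,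
        Finset.card_erase_of_mem hi]
    · rw [if_neg (fun hs => hi (Finset.singleton_subset_iff.mp hs)), if_neg hi]
  simp_rw [h]
  rw [Finset.sum_ite_mem, Finset.univ_inter, Finset.sum_const, nsmul_eq_mul]
  ring

lemma biasPoly_natDegree_le {F : (Fin n → Bool) → ℝ} {d : ℕ}
    (hdeg : ∀ S : Finset (Fin n), d < S.card → coef F S = 0) : (biasPoly F).natDegree ≤ d := by
  unfold biasPoly
  apply Polynomial.natDegree_sum_le_of_forall_le
  intro S _
  by_cases h : d < S.card
  · rw [hdeg S h]
    simp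
  · exact (Polynomial.natDegree_C_mul_X_pow_le _ _).trans (not_lt.mp h)

lemma bcoef_zero_singleton (F : (Fin n → Bool) → ℝ) (i : Fin n) :
    bcoef F 0 {i} = coef F {i} := by
  unfold bcoef
  rw [Finset.sum_eq_single {i}]
  · simp
  · intro S _ hne
    split_ifs with h
    · have h0 : (S \ {i}).card ≠ 0 := by
        intro h0
        rw [Finset.card_eq_zero, Finset.sdiff_eq_empty_iff_subset] at h0
        exact hne (Finset.Subset.antisymm h0 h)
      rw [zero_pow h0, mul_zero]
    · rfl
  · intro h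
    exact absurd (Finset.mem_univ _) h

/-- The derivative of the bias polynomial at `0` is the sum of the level-one coefficients. -/
lemma biasPoly_derivative_eval_zero (F : (Fin n → Bool) → ℝ) :
    (biasPoly F).derivative.eval 0 = ∑ i : Fin n, coef F {i} := by
  rw [biasPoly_derivative_eval]
  apply Finset.sum_congr rfl
  intro i _
  exact bcoef_zero_singleton F i

lemma abs_biasPoly_eval_le {F : (Fin n → Bool) → ℝ} (hF : ∀ x, F x = 1 ∨ F x = -1) {ρ : ℝ}
    (hρ : |ρ| ≤ 1) : |(biasPoly F).eval ρ| ≤ 1 := by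
  rw [biasPoly_eval, ← Ebias_eq_bcoef_empty]
  unfold Ebias
  calc |∑ x : Fin n → Bool, wt ρ x * F x|
      ≤ ∑ x : Fin n → Bool, |wt ρ x * F x| := Finset.abs_sum_le_sum_abs _ _
    _ = ∑ x : Fin n → Bool, wt ρ x := by
        apply Finset.sum_congr rfl
        intro x _
        rw [abs_mul, abs_of_nonneg (wt_nonneg hρ x)]
        rcases hF x with h | h <;> rw [h] <;> simp
    _ = 1 := sum_wt ρ

/-- **Bernstein-type inequality for the bias polynomial of a Boolean function** of degree at
most `d`: `|P'(ρ)| (1 - ρ²) ≤ d (1 - P(ρ)²)` for `|ρ| ≤ 1`. -/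
theorem bias_bernstein {F : (Fin n → Bool) → ℝ} (hF : ∀ x, F x = 1 ∨ F x = -1) {d : ℕ}
    (hdeg : ∀ S : Finset (Fin n), d < S.card → coef F S = 0) {ρ : ℝ} (hρ : |ρ| ≤ 1) :
    |(biasPoly F).derivative.eval ρ| * (1 - ρ ^ 2)
      ≤ d * (1 - ((biasPoly F).eval ρ) ^ 2) := by
  have hσ : 0 ≤ 1 - ρ ^ 2 := by
    have := (sq_le_one_iff_abs_le_one ρ).mpr hρ
    linarith
  have hpars : ∑ T : Finset (Fin n), bcoef F ρ T ^ 2 * (1 - ρ ^ 2) ^ T.card = 1 := by
    rw [← Ebias_sq]
    have h1 : (fun x => (F x) ^ 2) = fun _ => (1 : ℝ) := by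
      funext x
      rcases hF x with h | h <;> rw [h] <;> norm_num
    rw [h1]
    unfold Ebias
    simp [sum_wt]
  rw [biasPoly_derivative_eval, biasPoly_eval]
  calc |∑ i : Fin n, bcoef F ρ {i}| * (1 - ρ ^ 2)
      ≤ (∑ i : Fin n, |bcoef F ρ {i}|) * (1 - ρ ^ 2) :=
        mul_le_mul_of_nonneg_right (Finset.abs_sum_le_sum_abs _ _) hσ
    _ ≤ (∑ i : Fin n, Ebias ρ (fun x => (dcube i F x) ^ 2)) * (1 - ρ ^ 2) := by
        apply mul_le_mul_of_nonneg_right _ hσ
        apply Finset.sum_le_sum
        intro i _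
        rw [← Ebias_dcube]
        exact abs_Ebias_dcube_le hF hρ i
    _ = ∑ T : Finset (Fin n), (T.card : ℝ) * (bcoef F ρ T ^ 2 * (1 - ρ ^ 2) ^ T.card) := by
        simp_rw [Ebias_dcube_sq]
        rw [Finset.sum_mul]
        simp_rw [Finset.sum_mul]
        rw [Finset.sum_comm]
        apply Finset.sum_congr rfl
        intro T _
        have h : ∀ i : Fin n, (if i ∈ T then bcoef F ρ T else 0) ^ 2
            * (1 - ρ ^ 2) ^ (T.erase i).card * (1 - ρ ^ 2)
            = if i ∈ T then bcoef F ρ T ^ 2 * (1 - ρ ^ 2) ^ T.card else 0 := by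
          intro i
          split_ifs with hi
          · rw [Finset.card_erase_of_mem hi]
            have hc : T.card = (T.card - 1) + 1 :=
              (Nat.succ_pred_eq_of_pos (Finset.card_pos.mpr ⟨i, hi⟩)).symm
            conv_rhs => rw [hc, pow_succ]
            ring
          · ring
        simp_rw [h]
        rw [Finset.sum_ite_mem, Finset.univ_inter, Finset.sum_const, nsmul_eq_mul]
    _ ≤ ∑ T : Finset (Fin n),
          (d : ℝ) * (bcoef F ρ T ^ 2 * (1 - ρ ^ 2) ^ T.card
            - if T = ∅ then bcoef F ρ T ^ 2 * (1 - ρ ^ 2) ^ T.card else 0) := by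
        apply Finset.sum_le_sum
        intro T _
        have h0 : 0 ≤ bcoef F ρ T ^ 2 * (1 - ρ ^ 2) ^ T.card :=
          mul_nonneg (sq_nonneg _) (pow_nonneg hσ _)
        by_cases hT : T = ∅
        · subst hT
          simp
        · rw [if_neg hT, sub_zero]
          by_cases hd : d < T.card
          · rw [bcoef_eq_zero hdeg ρ hd]
            simp
          · have hle : (T.card : ℝ) ≤ d := by exact_mod_cast not_lt.mp hd
            exact mul_le_mul_of_nonneg_right hle h0
    _ = d * (1 - (bcoef F ρ ∅) ^ 2) := by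
        rw [← Finset.mul_sum, Finset.sum_sub_distrib, hpars, Finset.sum_ite_eq' Finset.univ ∅,
          if_pos (Finset.mem_univ _)]
        simp

end boolean

end Vale.Agent.H39
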