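import Mathlib

/-!
# Integrating the differential inequality `p' (1 - ρ²) ≤ d (1 - p²)` (helper file of seat H39)
-/

namespace Vale.Agent.H39

open Set

/-- Monotonicity of `(1+p)(1-ρ)^d / ((1-p)(1+ρ)^d)` along a solution of the differential
inequality, in cross-multiplied form. -/
lemma ode_step (p p' : ℝ → ℝ) (hp : ∀ ρ, HasDerivAt p (p' ρ) ρ) (m : ℕ) {r : ℝ}
    (hr0 : 0 ≤ r) (hr1 : r < 1)
    (hlt : ∀ ρ ∈ Icc (-r) r, p ρ < 1)
    (hode : ∀ ρ ∈ Ioo (-r) r, p' ρ * (1 - ρ ^ 2) ≤ ((m : ℝ) + 1) * (1 - (p ρ) ^ 2)) :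
    (1 + p r) * (1 - p (-r)) * (1 - r) ^ (2 * (m + 1))
      ≤ (1 + p (-r)) * (1 - p r) * (1 + r) ^ (2 * (m + 1)) := by
  set G : ℝ → ℝ := fun ρ => (1 + p ρ) * (1 - ρ) ^ (m + 1) / ((1 - p ρ) * (1 + ρ) ^ (m + 1))
    with hG
  have hden : ∀ ρ ∈ Icc (-r) r, 0 < (1 - p ρ) * (1 + ρ) ^ (m + 1) := by
    intro ρ hρ
    have h1 := hlt ρ hρ
    have h2 : 0 < 1 + ρ := by linarith [hρ.1]
    have h3 : 0 < 1 - p ρ := by linarith
    positivity
  have hderiv : ∀ ρ ∈ Icc (-r) r, HasDerivAt G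
      (((p' ρ * (1 - ρ) ^ (m + 1) + (1 + p ρ) * (((m + 1 : ℕ) : ℝ) * (1 - ρ) ^ (m + 1 - 1) * (-1)))
          * ((1 - p ρ) * (1 + ρ) ^ (m + 1))
        - (1 + p ρ) * (1 - ρ) ^ (m + 1)
          * (-p' ρ * (1 + ρ) ^ (m + 1) + (1 - p ρ) * (((m + 1 : ℕ) : ℝ) * (1 + ρ) ^ (m + 1 - 1) * 1)))
        / ((1 - p ρ) * (1 + ρ) ^ (m + 1)) ^ 2) ρ := by
    intro ρ hρ
    have hA : HasDerivAt (fun ρ => (1 + p ρ) * (1 - ρ) ^ (m + 1))
        (p' ρ * (1 - ρ) ^ (m + 1) + (1 + p ρ) * (((m + 1 : ℕ) : ℝ) * (1 - ρ) ^ (m + 1 - 1) * (-1))) ρ :=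
      ((hp ρ).const_add 1).mul (((hasDerivAt_id ρ).const_sub 1).pow (m + 1))
    have hB : HasDerivAt (fun ρ => (1 - p ρ) * (1 + ρ) ^ (m + 1))
        (-p' ρ * (1 + ρ) ^ (m + 1) + (1 - p ρ) * (((m + 1 : ℕ) : ℝ) * (1 + ρ) ^ (m + 1 - 1) * 1)) ρ :=
      ((hp ρ).const_sub 1).mul (((hasDerivAt_id ρ).const_add 1).pow (m + 1))
    exact hA.div hB (hden ρ hρ).ne'
  have hanti : AntitoneOn G (Icc (-r) r) := by
    apply antitoneOn_of_deriv_nonpos (convex_Icc _ _)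
    · intro ρ hρ
      exact (hderiv ρ hρ).continuousAt.continuousWithinAt
    · intro ρ hρ
      rw [interior_Icc] at hρ
      exact (hderiv ρ (Ioo_subset_Icc_self hρ)).differentiableAt.differentiableWithinAt
    · intro ρ hρ
      rw [interior_Icc] at hρ
      rw [(hderiv ρ (Ioo_subset_Icc_self hρ)).deriv]
      apply div_nonpos_of_nonpos_of_nonneg _ (sq_nonneg _)
      have h1 : 0 ≤ 1 - ρ := by linarith [hρ.2]
      have h2 : 0 ≤ 1 + ρ := by linarith [hρ.1]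
      have h3 := hode ρ hρ
      have key : (p' ρ * (1 - ρ) ^ (m + 1) + (1 + p ρ) * (((m + 1 : ℕ) : ℝ) * (1 - ρ) ^ (m + 1 - 1) * (-1)))
          * ((1 - p ρ) * (1 + ρ) ^ (m + 1))
        - (1 + p ρ) * (1 - ρ) ^ (m + 1)
          * (-p' ρ * (1 + ρ) ^ (m + 1) + (1 - p ρ) * (((m + 1 : ℕ) : ℝ) * (1 + ρ) ^ (m + 1 - 1) * 1))
        = ((1 - ρ) ^ m * (1 + ρ) ^ m)
          * (2 * (p' ρ * (1 - ρ ^ 2) - ((m : ℝ) + 1) * (1 - (p ρ) ^ 2))) := by
        simp only [Nat.add_sub_cancel]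
        push_cast
        ring
      rw [key]
      apply mul_nonpos_of_nonneg_of_nonpos (by positivity)
      linarith
  have hmem1 : r ∈ Icc (-r) r := ⟨by linarith, le_rfl⟩
  have hmem2 : -r ∈ Icc (-r) r := ⟨le_rfl, by linarith⟩
  have hle := hanti hmem2 hmem1 (by linarith)
  rw [hG] at hle
  simp only at hle
  rw [div_le_div_iff₀ (hden r hmem1) (hden (-r) hmem2)] at hle
  have e1 : (1 : ℝ) - -r = 1 + r := by ring
  have e2 : (1 : ℝ) + -r = 1 - r := by ring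
  rw [e1, e2] at hle
  calc (1 + p r) * (1 - p (-r)) * (1 - r) ^ (2 * (m + 1))
      = (1 + p r) * (1 - r) ^ (m + 1) * ((1 - p (-r)) * (1 - r) ^ (m + 1)) := by ring
    _ ≤ (1 + p (-r)) * (1 + r) ^ (m + 1) * ((1 - p r) * (1 + r) ^ (m + 1)) := hle
    _ = (1 + p (-r)) * (1 - p r) * (1 + r) ^ (2 * (m + 1)) := by ring

lemma alg_step {u v E : ℝ} (hu : u ≤ 1) (hv : -1 ≤ v) (hE : 1 ≤ E)
    (h : (1 + u) * (1 - v) ≤ E ^ 2 * ((1 + v) * (1 - u))) :
    (u - v) * (E + 1) ≤ 2 * (E - 1) := by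
  have hx : 0 ≤ 1 - u := by linarith
  have hy : 0 ≤ 1 + v := by linarith
  have hxy : 4 * ((1 - u) * (1 + v)) ≤ ((1 - u) + (1 + v)) ^ 2 := by
    nlinarith [sq_nonneg ((1 - u) - (1 + v))]
  have hE2 : 0 ≤ E ^ 2 - 1 := by nlinarith
  have h2 : 16 - 8 * ((1 - u) + (1 + v)) ≤ (E ^ 2 - 1) * ((1 - u) + (1 + v)) ^ 2 := by
    nlinarith [mul_le_mul_of_nonneg_left hxy hE2]
  by_contra hcon
  push Not at hcon
  have h3 : (E + 1) * ((1 - u) + (1 + v)) - 4 < 0 := by nlinarith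
  have h4 : 0 < (E - 1) * ((1 - u) + (1 + v)) + 4 := by
    have : 0 ≤ (E - 1) * ((1 - u) + (1 + v)) := mul_nonneg (by linarith) (by linarith)
    linarith
  have h5 := mul_neg_of_neg_of_pos h3 h4
  nlinarith

/-- Integrated form of the differential inequality for a polynomial bounded by `1` on `[-1,1]`:
`P(r) - P(-r) ≤ 2 (E - 1)/(E + 1)` with `E = ((1+r)/(1-r))^(m+1)`. -/
theorem ode_bound (P : Polynomial ℝ) (m : ℕ) (hP : ∀ ρ : ℝ, |ρ| ≤ 1 → |P.eval ρ| ≤ 1)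
    (hode : ∀ ρ : ℝ, |ρ| < 1 →
      P.derivative.eval ρ * (1 - ρ ^ 2) ≤ ((m : ℝ) + 1) * (1 - (P.eval ρ) ^ 2))
    {r : ℝ} (hr0 : 0 ≤ r) (hr1 : r < 1) :
    (P.eval r - P.eval (-r)) * (((1 + r) / (1 - r)) ^ (m + 1) + 1)
      ≤ 2 * (((1 + r) / (1 - r)) ^ (m + 1) - 1) := by
  have h1r : 0 < 1 - r := by linarith
  set E : ℝ := ((1 + r) / (1 - r)) ^ (m + 1) with hE
  have hE1 : 1 ≤ E := by
    apply one_le_pow₀
    rw [le_div_iff₀ h1r]
    linarith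
  have hmemr : |r| ≤ 1 := by
    rw [abs_of_nonneg hr0]
    exact hr1.le
  have hmemr' : |(-r)| ≤ 1 := by
    rw [abs_neg]
    exact hmemr
  have key : ∀ ε : ℝ, 0 < ε → ε < 1 →
      (1 - ε) * ((P.eval r - P.eval (-r)) * (E + 1)) ≤ 2 * (E - 1) := by
    intro ε hε0 hε1
    have hstep := ode_step (fun ρ => (1 - ε) * P.eval ρ) (fun ρ => (1 - ε) * P.derivative.eval ρ)
      (fun ρ => (P.hasDerivAt ρ).const_mul (1 - ε)) m hr0 hr1
      (by
        intro ρ hρ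
        have habs : |ρ| ≤ 1 := by
          rw [abs_le]
          constructor <;> linarith [hρ.1, hρ.2]
        have := (abs_le.mp (hP ρ habs)).2
        show (1 - ε) * P.eval ρ < 1
        nlinarith)
      (by
        intro ρ hρ
        have habs : |ρ| < 1 := by
          rw [abs_lt]
          constructor <;> linarith [hρ.1, hρ.2]
        have h1 := hode ρ habs
        have h2 := abs_le.mp (hP ρ habs.le)
        have h3 : (P.eval ρ) ^ 2 ≤ 1 := by nlinarith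
        have hm : (0 : ℝ) ≤ (m : ℝ) + 1 := by positivity
        show (1 - ε) * P.derivative.eval ρ * (1 - ρ ^ 2)
          ≤ ((m : ℝ) + 1) * (1 - ((1 - ε) * P.eval ρ) ^ 2)
        have h4 : (1 - ε) * (1 - (P.eval ρ) ^ 2) ≤ 1 - ((1 - ε) * P.eval ρ) ^ 2 := by
          nlinarith [mul_nonneg (mul_nonneg hε0.le (by linarith : (0 : ℝ) ≤ 1 - ε))
            (sq_nonneg (P.eval ρ))]
        calc (1 - ε) * P.derivative.eval ρ * (1 - ρ ^ 2)
            = (1 - ε) * (P.derivative.eval ρ * (1 - ρ ^ 2)) := by ring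
          _ ≤ (1 - ε) * (((m : ℝ) + 1) * (1 - (P.eval ρ) ^ 2)) :=
              mul_le_mul_of_nonneg_left h1 (by linarith)
          _ = ((m : ℝ) + 1) * ((1 - ε) * (1 - (P.eval ρ) ^ 2)) := by ring
          _ ≤ ((m : ℝ) + 1) * (1 - ((1 - ε) * P.eval ρ) ^ 2) :=
              mul_le_mul_of_nonneg_left h4 hm)
    have hpow : 0 < (1 - r) ^ (2 * (m + 1)) := by positivity
    have hE2 : E ^ 2 * (1 - r) ^ (2 * (m + 1)) = (1 + r) ^ (2 * (m + 1)) := by
      rw [hE, ← pow_mul, mul_comm (m + 1) 2, div_pow, div_mul_cancel₀ _ hpow.ne']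
    have hu := (abs_le.mp (hP r hmemr)).2
    have hv := (abs_le.mp (hP (-r) hmemr')).1
    have halg := alg_step (u := (1 - ε) * P.eval r) (v := (1 - ε) * P.eval (-r)) (E := E)
      (by nlinarith) (by nlinarith) hE1
      (by
        rw [← hE2] at hstep
        have h6 : (1 + (1 - ε) * P.eval r) * (1 - (1 - ε) * P.eval (-r)) * (1 - r) ^ (2 * (m + 1))
            ≤ E ^ 2 * ((1 + (1 - ε) * P.eval (-r)) * (1 - (1 - ε) * P.eval r))
              * (1 - r) ^ (2 * (m + 1)) := by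
          calc (1 + (1 - ε) * P.eval r) * (1 - (1 - ε) * P.eval (-r)) * (1 - r) ^ (2 * (m + 1))
              ≤ (1 + (1 - ε) * P.eval (-r)) * (1 - (1 - ε) * P.eval r)
                * (E ^ 2 * (1 - r) ^ (2 * (m + 1))) := hstep
            _ = E ^ 2 * ((1 + (1 - ε) * P.eval (-r)) * (1 - (1 - ε) * P.eval r))
                * (1 - r) ^ (2 * (m + 1)) := by ring
        exact le_of_mul_le_mul_right h6 hpow)
    calc (1 - ε) * ((P.eval r - P.eval (-r)) * (E + 1))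
        = ((1 - ε) * P.eval r - (1 - ε) * P.eval (-r)) * (E + 1) := by ring
      _ ≤ 2 * (E - 1) := halg
  by_contra hcon
  push Not at hcon
  set D : ℝ := (P.eval r - P.eval (-r)) * (E + 1) with hD
  have hK : 0 ≤ 2 * (E - 1) := by linarith
  have hDpos : 0 < D := by linarith
  have hε0 : 0 < (D - 2 * (E - 1)) / (2 * D) := by
    apply div_pos <;> linarith
  have hε1 : (D - 2 * (E - 1)) / (2 * D) < 1 := by
    rw [div_lt_one (by linarith)]
    linarith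
  have h := key _ hε0 hε1
  have h' : (1 - (D - 2 * (E - 1)) / (2 * D)) * D = (D + 2 * (E - 1)) / 2 := by
    field_simp
    ring
  rw [h'] at h
  linarith

end Vale.Agent.H39
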