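import Mathlib

/-!
# Numerical estimates for the constant in the level-one bound (helper file of seat H39)
-/

namespace Vale.Agent.H39

open Set

/-- `(1+t)/(1-t) ≤ exp(2t + t³)` for `0 ≤ t ≤ 11/20`. -/
lemma ratio_le_exp {t : ℝ} (ht0 : 0 ≤ t) (ht1 : t ≤ 11 / 20) :
    (1 + t) / (1 - t) ≤ Real.exp (2 * t + t ^ 3) := by
  set h : ℝ → ℝ := fun x => 2 * x + x ^ 3 - Real.log (1 + x) + Real.log (1 - x) with hh
  have hderiv : ∀ x ∈ Icc (0 : ℝ) (11 / 20),
      HasDerivAt h (2 * 1 + 3 * x ^ 2 - 1 / (1 + x) + (-1) / (1 - x)) x := by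
    intro x hx
    have h1 : (1 + x) ≠ 0 := by linarith [hx.1]
    have h2 : (1 - x) ≠ 0 := by linarith [hx.2]
    have hA : HasDerivAt (fun x : ℝ => 2 * x) (2 * 1) x := (hasDerivAt_id x).const_mul 2
    have hB : HasDerivAt (fun x : ℝ => x ^ 3) (3 * x ^ 2) x := by
      simpa using hasDerivAt_pow 3 x
    have hC : HasDerivAt (fun x : ℝ => Real.log (1 + x)) (1 / (1 + x)) x :=
      ((hasDerivAt_id x).const_add 1).log h1
    have hD : HasDerivAt (fun x : ℝ => Real.log (1 - x)) ((-1) / (1 - x)) x :=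
      ((hasDerivAt_id x).const_sub 1).log h2
    exact ((hA.add hB).sub hC).add hD
  have hmono : MonotoneOn h (Icc (0 : ℝ) (11 / 20)) := by
    apply monotoneOn_of_deriv_nonneg (convex_Icc _ _)
    · intro x hx
      exact (hderiv x hx).continuousAt.continuousWithinAt
    · intro x hx
      rw [interior_Icc] at hx
      exact (hderiv x (Ioo_subset_Icc_self hx)).differentiableAt.differentiableWithinAt
    · intro x hx
      rw [interior_Icc] at hx
      rw [(hderiv x (Ioo_subset_Icc_self hx)).deriv]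
      have h1 : 0 < 1 + x := by linarith [hx.1]
      have h2 : 0 < 1 - x := by linarith [hx.2]
      have e : 2 * 1 + 3 * x ^ 2 - 1 / (1 + x) + (-1) / (1 - x)
          = x ^ 2 * (1 - 3 * x ^ 2) / ((1 + x) * (1 - x)) := by
        field_simp
        ring
      rw [e]
      apply div_nonneg (mul_nonneg (sq_nonneg x) _) (by positivity)
      nlinarith [hx.1, hx.2]
  have h0 : h 0 ≤ h t := hmono ⟨le_rfl, by norm_num⟩ ⟨ht0, ht1⟩ ht0
  have hh0 : h 0 = 0 := by simp [hh]
  rw [hh0] at h0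
  have h1 : 0 < 1 + t := by linarith
  have h2 : 0 < 1 - t := by linarith
  have h3 : Real.log (1 + t) - Real.log (1 - t) ≤ 2 * t + t ^ 3 := by
    simp only [hh] at h0
    linarith
  calc (1 + t) / (1 - t) = Real.exp (Real.log (1 + t) - Real.log (1 - t)) := by
        rw [Real.exp_sub, Real.exp_log h1, Real.exp_log h2]
    _ ≤ Real.exp (2 * t + t ^ 3) := Real.exp_le_exp.mpr h3

lemma exp_bound_aux : Real.exp (18 / 5) ≤ 79 / 2 := by
  have h1 := Real.exp_one_lt_d9
  have h4 : Real.exp 4 = Real.exp 1 ^ 4 := by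
    rw [← Real.exp_nat_mul]
    norm_num
  have h04 : (37 / 25 : ℝ) ≤ Real.exp (2 / 5) := by
    have := Real.quadratic_le_exp_of_nonneg (x := 2 / 5) (by norm_num)
    norm_num at this
    linarith
  have hmul : Real.exp (18 / 5) * Real.exp (2 / 5) = Real.exp 4 := by
    rw [← Real.exp_add]
    norm_num
  have hpos : 0 < Real.exp (18 / 5) := Real.exp_pos _
  have h1pos : 0 < Real.exp 1 := Real.exp_pos _
  have h5 : Real.exp 1 ^ 4 < 2.7182818286 ^ 4 := by
    apply pow_lt_pow_left₀ h1 h1pos.le (by norm_num)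
  have h6 : Real.exp (18 / 5) * (37 / 25) ≤ Real.exp 4 := by
    rw [← hmul]
    exact mul_le_mul_of_nonneg_left h04 hpos.le
  rw [h4] at h6
  norm_num at h5
  nlinarith

/-- The quantity `E_d = ((1+s)/(1-s))^d`, `s = sin(π/(2d))`, is at most `79/2` for `d ≥ 2`. -/
lemma E_bound {d : ℕ} (hd : 2 ≤ d) :
    ((1 + Real.sin (Real.pi / (2 * d))) / (1 - Real.sin (Real.pi / (2 * d)))) ^ d ≤ 79 / 2 := by
  rcases Nat.lt_or_ge d 3 with h3 | h3
  · have hd2 : d = 2 := by omega
    subst hd2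
    have e : Real.pi / (2 * ((2 : ℕ) : ℝ)) = Real.pi / 4 := by
      push_cast
      ring
    rw [e, Real.sin_pi_div_four]
    have hs2 : (Real.sqrt 2 / 2) ^ 2 = 1 / 2 := by
      rw [div_pow, Real.sq_sqrt (by norm_num)]
      norm_num
    have hs0 : 0 ≤ Real.sqrt 2 / 2 := by positivity
    have hs1 : Real.sqrt 2 / 2 < 712 / 1000 := by nlinarith
    have hpos : 0 < 1 - Real.sqrt 2 / 2 := by linarith
    rw [div_pow, div_le_iff₀ (by positivity)]
    nlinarith
  · have hd' : (3 : ℝ) ≤ d := by exact_mod_cast h3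
    have hdpos : (0 : ℝ) < d := by linarith
    have hpi1 := Real.pi_gt_three
    have hpi2 := Real.pi_lt_d4
    set t : ℝ := Real.pi / (2 * d) with ht
    have ht0 : 0 < t := by positivity
    have ht1 : t ≤ 5236 / 10000 := by
      rw [ht, div_le_iff₀ (by positivity)]
      nlinarith
    have hdt : (d : ℝ) * t = Real.pi / 2 := by
      rw [ht]
      field_simp
    have hs0 : 0 ≤ Real.sin t := Real.sin_nonneg_of_nonneg_of_le_pi ht0.le (by linarith)
    have hs1 : Real.sin t ≤ t := Real.sin_le ht0.le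
    have hratio : (1 + Real.sin t) / (1 - Real.sin t) ≤ (1 + t) / (1 - t) := by
      apply div_le_div₀ (by linarith) (by linarith) (by linarith) (by linarith)
    have hexp := ratio_le_exp ht0.le (by linarith : t ≤ 11 / 20)
    have hbase : 0 ≤ (1 + Real.sin t) / (1 - Real.sin t) := by
      apply div_nonneg (by linarith) (by linarith)
    calc ((1 + Real.sin t) / (1 - Real.sin t)) ^ d
        ≤ (Real.exp (2 * t + t ^ 3)) ^ d := pow_le_pow_left₀ hbase (hratio.trans hexp) d
      _ = Real.exp ((d : ℝ) * (2 * t + t ^ 3)) := by rw [← Real.exp_nat_mul]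
      _ ≤ Real.exp (18 / 5) := by
          apply Real.exp_le_exp.mpr
          have e : (d : ℝ) * (2 * t + t ^ 3) = Real.pi + Real.pi / 2 * t ^ 2 := by
            have : (d : ℝ) * (2 * t + t ^ 3) = 2 * ((d : ℝ) * t) + ((d : ℝ) * t) * t ^ 2 := by ring
            rw [this, hdt]
            ring
          rw [e]
          have ht2 : t ^ 2 ≤ (5236 / 10000) ^ 2 := pow_le_pow_left₀ ht0.le ht1 2
          nlinarith
      _ ≤ 79 / 2 := exp_bound_aux

/-- The gain term is at least `d/25`. -/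
lemma gain_bound {d : ℕ} (hd : 2 ≤ d) {E : ℝ} (hE0 : 0 ≤ E) (hE : E ≤ 79 / 2) :
    (d : ℝ) / 25 ≤ 1 / ((d : ℝ) * Real.sin (Real.pi / (4 * d)) ^ 2 * (1 + E)) := by
  have hd' : (2 : ℝ) ≤ d := by exact_mod_cast hd
  have hdpos : (0 : ℝ) < d := by linarith
  have hpi1 := Real.pi_gt_three
  have hpi2 := Real.pi_lt_d4
  have hx0 : 0 < Real.pi / (4 * d) := by positivity
  have hxpi : Real.pi / (4 * d) < Real.pi := by
    rw [div_lt_iff₀ (by positivity)]
    nlinarith
  have hsin_pos : 0 < Real.sin (Real.pi / (4 * d)) := Real.sin_pos_of_pos_of_lt_pi hx0 hxpi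
  have hsin_le : Real.sin (Real.pi / (4 * d)) ≤ Real.pi / (4 * d) := Real.sin_le hx0.le
  have hx : (d : ℝ) * Real.sin (Real.pi / (4 * d)) ≤ Real.pi / 4 := by
    calc (d : ℝ) * Real.sin (Real.pi / (4 * d)) ≤ (d : ℝ) * (Real.pi / (4 * d)) :=
          mul_le_mul_of_nonneg_left hsin_le hdpos.le
      _ = Real.pi / 4 := by
          field_simp
  have hx' : 0 < (d : ℝ) * Real.sin (Real.pi / (4 * d)) := by positivity
  have hsq : ((d : ℝ) * Real.sin (Real.pi / (4 * d))) ^ 2 ≤ (Real.pi / 4) ^ 2 :=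
    pow_le_pow_left₀ hx'.le hx 2
  have hpi3 : (Real.pi / 4) ^ 2 ≤ 61686 / 100000 := by nlinarith
  rw [div_le_div_iff₀ (by norm_num) (by positivity)]
  have hE1 : 0 < 1 + E := by linarith
  calc (d : ℝ) * ((d : ℝ) * Real.sin (Real.pi / (4 * d)) ^ 2 * (1 + E))
      = ((d : ℝ) * Real.sin (Real.pi / (4 * d))) ^ 2 * (1 + E) := by ring
    _ ≤ (61686 / 100000) * (1 + 79 / 2) := by
        apply mul_le_mul (hsq.trans hpi3) (by linarith) hE1.le (by norm_num)
    _ ≤ 1 * 25 := by norm_num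

end Vale.Agent.H39
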