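import Mathlib

/-!
# The interpolation formula of M. Riesz for the derivative at zero (helper file of seat H39)

For a real polynomial `Q` of degree at most `n` (`n ≥ 1`), with `θ_k = (2k+1)π/(2n)`,
`4 n Q'(0) = ∑_{k < 2n} (-1)^k Q(sin θ_k) / sin²(θ_k/2)` and `∑_{k < 2n} 1/sin²(θ_k/2) = 4 n²`.
-/

namespace Vale.Agent.H39

open Finset

/-- The angle `θ_k = (2k+1)π/(2n)`. -/
noncomputable def rieszAngle (n k : ℕ) : ℝ := (2 * (k : ℝ) + 1) * Real.pi / (2 * (n : ℝ))

/-- The point `ω_k = exp(i θ_k)` of the unit circle. -/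
noncomputable def rieszRoot (n k : ℕ) : ℂ := Complex.exp ((rieszAngle n k : ℂ) * Complex.I)

lemma rieszRoot_ne_zero (n k : ℕ) : rieszRoot n k ≠ 0 := Complex.exp_ne_zero _

lemma rieszRoot_pow (n k c : ℕ) :
    rieszRoot n k ^ c = Complex.exp ((c : ℂ) * ((rieszAngle n k : ℂ) * Complex.I)) := by
  rw [rieszRoot, ← Complex.exp_nat_mul]

lemma rieszRoot_pow_two_mul {n : ℕ} (hn : 0 < n) (k : ℕ) : rieszRoot n k ^ (2 * n) = -1 := by
  have hn' : (n : ℂ) ≠ 0 := by exact_mod_cast hn.ne'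
  rw [rieszRoot_pow]
  have h : ((2 * n : ℕ) : ℂ) * ((rieszAngle n k : ℂ) * Complex.I)
      = Real.pi * Complex.I + (k : ℂ) * (2 * Real.pi * Complex.I) := by
    simp only [rieszAngle]
    push_cast
    field_simp
    ring
  rw [h, Complex.exp_add, Complex.exp_pi_mul_I, Complex.exp_nat_mul_two_pi_mul_I]
  ring

lemma rieszRoot_pow_self {n : ℕ} (hn : 0 < n) (k : ℕ) :
    rieszRoot n k ^ n = Complex.I * (-1) ^ k := by
  have hn' : (n : ℂ) ≠ 0 := by exact_mod_cast hn.ne'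
  rw [rieszRoot_pow]
  have h : ((n : ℕ) : ℂ) * ((rieszAngle n k : ℂ) * Complex.I)
      = ((Real.pi / 2 : ℝ) : ℂ) * Complex.I + (k : ℂ) * (Real.pi * Complex.I) := by
    simp only [rieszAngle]
    push_cast
    field_simp
    ring
  rw [h, Complex.exp_add, Complex.exp_nat_mul, Complex.exp_pi_mul_I, Complex.exp_mul_I,
    ← Complex.ofReal_cos, ← Complex.ofReal_sin, Real.cos_pi_div_two, Real.sin_pi_div_two]
  simp

lemma rieszRoot_ne_one {n : ℕ} (hn : 0 < n) (k : ℕ) : rieszRoot n k ≠ 1 := by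
  intro h
  have := rieszRoot_pow_two_mul hn k
  rw [h, one_pow] at this
  norm_num at this

lemma rieszRoot_sub_one_ne_zero {n : ℕ} (hn : 0 < n) (k : ℕ) : rieszRoot n k - 1 ≠ 0 :=
  sub_ne_zero.mpr (rieszRoot_ne_one hn k)

/-- Power sums of the `ω_k` vanish for exponents strictly between `0` and `2n`. -/
lemma sum_rieszRoot_pow {n : ℕ} (hn : 0 < n) {c : ℕ} (hc0 : c ≠ 0) (hc : c < 2 * n) :
    ∑ k ∈ range (2 * n), rieszRoot n k ^ c = 0 := by
  have hn' : (n : ℂ) ≠ 0 := by exact_mod_cast hn.ne'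
  have h2n : 2 * n ≠ 0 := by omega
  set ξ : ℂ := Complex.exp (2 * Real.pi * Complex.I / ((2 * n : ℕ) : ℂ)) with hξ
  have hprim : IsPrimitiveRoot ξ (2 * n) := Complex.isPrimitiveRoot_exp (2 * n) h2n
  have hq1 : ξ ^ c ≠ 1 := hprim.pow_ne_one_of_pos_of_lt hc0 hc
  have hq2 : (ξ ^ c) ^ (2 * n) = 1 := by
    rw [← pow_mul, mul_comm, pow_mul, hprim.pow_eq_one, one_pow]
  have hterm : ∀ k : ℕ, rieszRoot n k ^ c
      = Complex.exp ((c : ℂ) * (Real.pi / (2 * n)) * Complex.I) * (ξ ^ c) ^ k := by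
    intro k
    rw [rieszRoot_pow, hξ, ← Complex.exp_nat_mul, ← Complex.exp_nat_mul, ← Complex.exp_add]
    congr 1
    simp only [rieszAngle]
    push_cast
    field_simp
    ring
  have hgeom : (∑ k ∈ range (2 * n), (ξ ^ c) ^ k) = 0 := by
    have h := geom_sum_mul (ξ ^ c) (2 * n)
    rw [hq2, sub_self] at h
    rcases mul_eq_zero.mp h with h | h
    · exact h
    · exact absurd (sub_eq_zero.mp h) hq1
  simp_rw [hterm]
  rw [← Finset.mul_sum, hgeom, mul_zero]

/-- Sum over the `ω_k` of a polynomial expression of degree below `2n`: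
only the constant coefficient survives. -/
lemma sum_rieszRoot_poly {n : ℕ} (hn : 0 < n) (m : ℕ) (hm : m ≤ 2 * n) (a : ℕ → ℂ) :
    ∑ k ∈ range (2 * n), ∑ j ∈ range m, a j * rieszRoot n k ^ j
      = if m = 0 then 0 else 2 * (n : ℂ) * a 0 := by
  rw [Finset.sum_comm]
  rcases Nat.eq_zero_or_pos m with rfl | hmpos
  · simp
  · rw [if_neg hmpos.ne']
    obtain ⟨m', rfl⟩ : ∃ m', m = m' + 1 := ⟨m - 1, by omega⟩
    rw [Finset.sum_range_succ']
    have hrest : ∑ j ∈ range m', ∑ k ∈ range (2 * n), a (j + 1) * rieszRoot n k ^ (j + 1) = 0 := by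
      apply Finset.sum_eq_zero
      intro j hj
      rw [← Finset.mul_sum, sum_rieszRoot_pow hn (by omega) (by
        have := Finset.mem_range.mp hj
        omega), mul_zero]
    rw [hrest, zero_add]
    simp

/-- Taylor expansion of a power at `1` with explicit quadratic remainder. -/
lemma pow_succ_taylor (w : ℂ) (m : ℕ) :
    w ^ (m + 1) = 1 + ((m : ℂ) + 1) * (w - 1)
      + (w - 1) ^ 2 * ∑ j ∈ range m, ((m : ℂ) - j) * w ^ j := by
  induction m with
  | zero => simp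
  | succ m ih =>
    have hS : ∑ j ∈ range (m + 1), (((m + 1 : ℕ) : ℂ) - j) * w ^ j
        = ((m : ℂ) + 1) + w * ∑ j ∈ range m, ((m : ℂ) - j) * w ^ j := by
      rw [Finset.sum_range_succ', Finset.mul_sum]
      simp only [pow_zero, mul_one, Nat.cast_zero, sub_zero]
      rw [add_comm]
      congr 1
      · push_cast; ring
      · apply Finset.sum_congr rfl
        intro j _
        push_cast
        ring
    rw [hS, pow_succ, ih]
    push_cast
    ring

/-- `∑_k 1/(ω_k - 1) = -n`. -/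
lemma sum_inv_rieszRoot_sub_one {n : ℕ} (hn : 0 < n) :
    ∑ k ∈ range (2 * n), (rieszRoot n k - 1)⁻¹ = -(n : ℂ) := by
  have h1 : ∀ k : ℕ, (rieszRoot n k - 1)⁻¹
      = -(1 / 2 : ℂ) * ∑ j ∈ range (2 * n), (1 : ℂ) * rieszRoot n k ^ j := by
    intro k
    have h := geom_sum_mul (rieszRoot n k) (2 * n)
    rw [rieszRoot_pow_two_mul hn k] at h
    have hne := rieszRoot_sub_one_ne_zero hn k
    simp only [one_mul]
    rw [eq_comm, ← mul_inv_eq_iff_eq_mul₀ hne] at h
    rw [← h]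
    ring
  simp_rw [h1]
  rw [← Finset.mul_sum, sum_rieszRoot_poly hn (2 * n) le_rfl (fun _ => 1),
    if_neg (by omega)]
  ring

/-- `∑_k 1/(ω_k - 1)² = n - n²`. -/
lemma sum_inv_sq_rieszRoot_sub_one {n : ℕ} (hn : 0 < n) :
    ∑ k ∈ range (2 * n), ((rieszRoot n k - 1) ^ 2)⁻¹ = (n : ℂ) - (n : ℂ) ^ 2 := by
  obtain ⟨m, hm⟩ : ∃ m, 2 * n = m + 1 := ⟨2 * n - 1, by omega⟩
  have h1 : ∀ k : ℕ, -((rieszRoot n k - 1) ^ 2)⁻¹
      = ((rieszRoot n k - 1) ^ 2)⁻¹ + ((m : ℂ) + 1) * (rieszRoot n k - 1)⁻¹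
        + ∑ j ∈ range m, ((m : ℂ) - j) * rieszRoot n k ^ j := by
    intro k
    have h := pow_succ_taylor (rieszRoot n k) m
    rw [← hm, rieszRoot_pow_two_mul hn k] at h
    have hne := rieszRoot_sub_one_ne_zero hn k
    have hne2 : (rieszRoot n k - 1) ^ 2 ≠ 0 := pow_ne_zero 2 hne
    field_simp
    linear_combination h
  have h2 := Finset.sum_congr (s₁ := range (2 * n)) rfl (fun k _ => h1 k)
  rw [Finset.sum_neg_distrib, Finset.sum_add_distrib, Finset.sum_add_distrib, ← Finset.mul_sum,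
    sum_inv_rieszRoot_sub_one hn, sum_rieszRoot_poly hn m (by omega) (fun j => (m : ℂ) - j)] at h2
  have hmc : (m : ℂ) = 2 * (n : ℂ) - 1 := by
    have : ((2 * n : ℕ) : ℂ) = ((m + 1 : ℕ) : ℂ) := by rw [hm]
    push_cast at this
    linear_combination -this
  by_cases hm0 : m = 0
  · rw [if_pos hm0] at h2
    have hn1 : (n : ℂ) = 1 / 2 := by
      rw [hm0] at hmc
      push_cast at hmc
      linear_combination -(1 / 2 : ℂ) * hmc
    exfalso
    omega
  · rw [if_neg hm0] at h2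
    simp only [Nat.cast_zero, sub_zero] at h2
    rw [hmc] at h2
    linear_combination -(1 / 2 : ℂ) * h2

/-- The key sum: `∑_k ω_k^(m+1)/(ω_k - 1)² = n (m - n)` for `m ≤ 2n`. -/
lemma sum_rieszRoot_pow_div {n : ℕ} (hn : 0 < n) {m : ℕ} (hm : m ≤ 2 * n) :
    ∑ k ∈ range (2 * n), rieszRoot n k ^ (m + 1) * ((rieszRoot n k - 1) ^ 2)⁻¹
      = (n : ℂ) * ((m : ℂ) - n) := by
  have h1 : ∀ k : ℕ, rieszRoot n k ^ (m + 1) * ((rieszRoot n k - 1) ^ 2)⁻¹
      = ((rieszRoot n k - 1) ^ 2)⁻¹ + ((m : ℂ) + 1) * (rieszRoot n k - 1)⁻¹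
        + ∑ j ∈ range m, ((m : ℂ) - j) * rieszRoot n k ^ j := by
    intro k
    have h := pow_succ_taylor (rieszRoot n k) m
    have hne := rieszRoot_sub_one_ne_zero hn k
    have hne2 : (rieszRoot n k - 1) ^ 2 ≠ 0 := pow_ne_zero 2 hne
    rw [h]
    field_simp
  simp_rw [h1]
  rw [Finset.sum_add_distrib, Finset.sum_add_distrib, ← Finset.mul_sum,
    sum_inv_rieszRoot_sub_one hn, sum_inv_sq_rieszRoot_sub_one hn,
    sum_rieszRoot_poly hn m hm (fun j => (m : ℂ) - j)]
  by_cases hm0 : m = 0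
  · rw [if_pos hm0, hm0]
    push_cast
    ring
  · rw [if_neg hm0]
    push_cast
    ring

/-- The sum over the `ω_k` of `p(ω) ω/(ω-1)²` for a polynomial of degree at most `2n`. -/
lemma sum_rieszRoot_eval {n : ℕ} (hn : 0 < n) (p : Polynomial ℂ) (hp : p.natDegree ≤ 2 * n) :
    ∑ k ∈ range (2 * n), p.eval (rieszRoot n k) * rieszRoot n k * ((rieszRoot n k - 1) ^ 2)⁻¹
      = (n : ℂ) * (p.derivative.eval 1 - (n : ℂ) * p.eval 1) := by
  have hlt : p.natDegree < 2 * n + 1 := by omega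
  have h1 : ∀ k : ℕ, p.eval (rieszRoot n k) * rieszRoot n k * ((rieszRoot n k - 1) ^ 2)⁻¹
      = ∑ m ∈ range (2 * n + 1),
          p.coeff m * (rieszRoot n k ^ (m + 1) * ((rieszRoot n k - 1) ^ 2)⁻¹) := by
    intro k
    rw [Polynomial.eval_eq_sum_range' hlt, Finset.sum_mul, Finset.sum_mul]
    apply Finset.sum_congr rfl
    intro m _
    ring
  simp_rw [h1]
  rw [Finset.sum_comm]
  have h2 : ∀ m ∈ range (2 * n + 1),
      ∑ k ∈ range (2 * n), p.coeff m * (rieszRoot n k ^ (m + 1) * ((rieszRoot n k - 1) ^ 2)⁻¹)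
        = p.coeff m * ((n : ℂ) * ((m : ℂ) - n)) := by
    intro m hm
    rw [← Finset.mul_sum, sum_rieszRoot_pow_div hn (by
      have := Finset.mem_range.mp hm
      omega)]
  rw [Finset.sum_congr rfl h2, Polynomial.derivative_eval,
    Polynomial.sum_over_range' p (by intro m; simp) (2 * n + 1) hlt,
    Polynomial.eval_eq_sum_range' hlt, Finset.mul_sum, ← Finset.sum_sub_distrib, Finset.mul_sum]
  apply Finset.sum_congr rfl
  intro m _
  simp only [one_pow, mul_one]
  ring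

open Polynomial

lemma sin_rieszAngle (n k : ℕ) :
    Complex.sin (rieszAngle n k : ℂ)
      = ((rieszRoot n k)⁻¹ - rieszRoot n k) * Complex.I / 2 := by
  rw [Complex.sin, rieszRoot, ← Complex.exp_neg, neg_mul]

lemma sin_half_sq_rieszAngle (n k : ℕ) :
    Complex.sin ((rieszAngle n k : ℂ) / 2) ^ 2
      = (2 - rieszRoot n k - (rieszRoot n k)⁻¹) / 4 := by
  have h : ((Real.sin (rieszAngle n k / 2) ^ 2 : ℝ) : ℂ)
      = (2 - rieszRoot n k - (rieszRoot n k)⁻¹) / 4 := by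
    rw [Real.sin_sq_eq_half_sub, mul_div_cancel₀ _ (two_ne_zero' ℝ)]
    push_cast
    rw [Complex.cos, rieszRoot, ← Complex.exp_neg, neg_mul]
    ring
  rw [← h]
  push_cast
  rfl

lemma inv_sin_half_sq_rieszAngle {n : ℕ} (hn : 0 < n) (k : ℕ) :
    (Complex.sin ((rieszAngle n k : ℂ) / 2) ^ 2)⁻¹
      = -4 * rieszRoot n k * ((rieszRoot n k - 1) ^ 2)⁻¹ := by
  have h0 := rieszRoot_ne_zero n k
  have h1 := rieszRoot_sub_one_ne_zero hn k
  have e : (2 - rieszRoot n k - (rieszRoot n k)⁻¹) / 4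
      = -(rieszRoot n k - 1) ^ 2 / (4 * rieszRoot n k) := by
    field_simp
    ring
  rw [sin_half_sq_rieszAngle, e]
  field_simp

lemma neg_one_pow_eq_rieszRoot {n : ℕ} (hn : 0 < n) (k : ℕ) :
    ((-1 : ℂ)) ^ k = -Complex.I * rieszRoot n k ^ n := by
  rw [rieszRoot_pow_self hn k, ← mul_assoc, neg_mul, Complex.I_mul_I]
  ring

/-- The `k`-th term of the interpolation sum for the monomial `x^j`, in complex form. -/
lemma riesz_term {n : ℕ} (hn : 0 < n) (k : ℕ) {j : ℕ} (hj : j ≤ n) :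
    (((-1 : ℝ) ^ k * Real.sin (rieszAngle n k) ^ j / Real.sin (rieszAngle n k / 2) ^ 2 : ℝ) : ℂ)
      = 4 * Complex.I * (Complex.I / 2) ^ j *
          ((X ^ (n - j) * (1 - X ^ 2) ^ j : Polynomial ℂ).eval (rieszRoot n k) * rieszRoot n k
            * ((rieszRoot n k - 1) ^ 2)⁻¹) := by
  have h0 := rieszRoot_ne_zero n k
  have h1 := rieszRoot_sub_one_ne_zero hn k
  have hpow : rieszRoot n k ^ n = rieszRoot n k ^ (n - j) * rieszRoot n k ^ j := by
    rw [← pow_add, Nat.sub_add_cancel hj]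
  have hinv : ((rieszRoot n k)⁻¹ - rieszRoot n k) ^ j * rieszRoot n k ^ j
      = (1 - rieszRoot n k ^ 2) ^ j := by
    rw [← mul_pow]
    congr 1
    field_simp
  have hden : ((2 - rieszRoot n k - (rieszRoot n k)⁻¹) / 4)⁻¹
      = -4 * rieszRoot n k * ((rieszRoot n k - 1) ^ 2)⁻¹ := by
    have e : (2 - rieszRoot n k - (rieszRoot n k)⁻¹) / 4
        = -(rieszRoot n k - 1) ^ 2 / (4 * rieszRoot n k) := by
      field_simp
      ring
    rw [e]
    field_simp
  have hmp : (((rieszRoot n k)⁻¹ - rieszRoot n k) * Complex.I / 2) ^ j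
      = (Complex.I / 2) ^ j * ((rieszRoot n k)⁻¹ - rieszRoot n k) ^ j := by
    rw [← mul_pow]
    congr 1
    ring
  push_cast
  rw [sin_rieszAngle, sin_half_sq_rieszAngle, neg_one_pow_eq_rieszRoot hn k,
    div_eq_mul_inv, hden, hpow, hmp]
  simp only [eval_mul, eval_pow, eval_X, eval_sub, eval_one]
  rw [← hinv]
  ring


lemma natDegree_rieszPoly_le {n j : ℕ} (hj : j ≤ n) :
    (X ^ (n - j) * (1 - X ^ 2) ^ j : Polynomial ℂ).natDegree ≤ 2 * n := by
  have h2 : ((1 : Polynomial ℂ) - X ^ 2).natDegree ≤ 2 := by compute_degree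
  calc (X ^ (n - j) * (1 - X ^ 2) ^ j : Polynomial ℂ).natDegree
      ≤ (X ^ (n - j) : Polynomial ℂ).natDegree + ((1 - X ^ 2) ^ j : Polynomial ℂ).natDegree := natDegree_mul_le
    _ ≤ (n - j) + j * 2 := by
        gcongr
        · simp
        · exact natDegree_pow_le.trans (Nat.mul_le_mul_left j h2)
    _ ≤ 2 * n := by omega

/-- The interpolation sums of the monomials. -/
lemma riesz_monomial {n : ℕ} (hn : 0 < n) {j : ℕ} (hj : j ≤ n) :
    ∑ k ∈ range (2 * n),
        (-1 : ℝ) ^ k * Real.sin (rieszAngle n k) ^ j / Real.sin (rieszAngle n k / 2) ^ 2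
      = if j = 1 then 4 * (n : ℝ) else 0 := by
  apply Complex.ofReal_injective
  rw [Complex.ofReal_sum]
  simp_rw [riesz_term hn _ hj]
  rw [← Finset.mul_sum, sum_rieszRoot_eval hn _ (natDegree_rieszPoly_le hj)]
  rcases j with _ | _ | j
  · simp [derivative_X_pow]
  · simp [derivative_mul, derivative_pow]
    ring_nf
    rw [Complex.I_sq]
    ring
  · simp [derivative_mul, derivative_pow]

/-- The weights of the interpolation formula sum to `4 n²`. -/
lemma riesz_weight_sum {n : ℕ} (hn : 0 < n) :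
    ∑ k ∈ range (2 * n), 1 / Real.sin (rieszAngle n k / 2) ^ 2 = 4 * (n : ℝ) ^ 2 := by
  apply Complex.ofReal_injective
  rw [Complex.ofReal_sum]
  have h1 : ∀ k : ℕ, ((1 / Real.sin (rieszAngle n k / 2) ^ 2 : ℝ) : ℂ)
      = -4 * ((1 : Polynomial ℂ).eval (rieszRoot n k) * rieszRoot n k
          * ((rieszRoot n k - 1) ^ 2)⁻¹) := by
    intro k
    push_cast
    rw [one_div, inv_sin_half_sq_rieszAngle hn k]
    simp
    ring
  simp_rw [h1]
  rw [← Finset.mul_sum, sum_rieszRoot_eval hn _ (by simp)]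
  simp
  ring

/-- **M. Riesz interpolation formula** for the derivative at `0` of a real polynomial of degree
at most `n`. -/
theorem riesz_formula {n : ℕ} (hn : 0 < n) (Q : Polynomial ℝ) (hQ : Q.natDegree ≤ n) :
    ∑ k ∈ range (2 * n),
        (-1 : ℝ) ^ k * Q.eval (Real.sin (rieszAngle n k)) / Real.sin (rieszAngle n k / 2) ^ 2
      = 4 * (n : ℝ) * Q.derivative.eval 0 := by
  have hlt : Q.natDegree < n + 1 := by omega
  have h1 : ∀ k : ℕ,
      (-1 : ℝ) ^ k * Q.eval (Real.sin (rieszAngle n k)) / Real.sin (rieszAngle n k / 2) ^ 2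
        = ∑ j ∈ range (n + 1), Q.coeff j *
            ((-1 : ℝ) ^ k * Real.sin (rieszAngle n k) ^ j / Real.sin (rieszAngle n k / 2) ^ 2) := by
    intro k
    rw [Polynomial.eval_eq_sum_range' hlt, Finset.mul_sum, Finset.sum_div]
    apply Finset.sum_congr rfl
    intro j _
    ring
  simp_rw [h1]
  rw [Finset.sum_comm]
  have h2 : ∀ j ∈ range (n + 1), ∑ k ∈ range (2 * n), Q.coeff j *
      ((-1 : ℝ) ^ k * Real.sin (rieszAngle n k) ^ j / Real.sin (rieszAngle n k / 2) ^ 2)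
        = Q.coeff j * (if j = 1 then 4 * (n : ℝ) else 0) := by
    intro j hj
    rw [← Finset.mul_sum, riesz_monomial hn (by
      have := Finset.mem_range.mp hj
      omega)]
  rw [Finset.sum_congr rfl h2]
  simp only [mul_ite, mul_zero]
  rw [Finset.sum_ite_eq' (range (n + 1)) 1, if_pos (Finset.mem_range.mpr (by omega))]
  rw [← Polynomial.coeff_zero_eq_eval_zero, Polynomial.coeff_derivative]
  push_cast
  ring

lemma sin_half_rieszAngle_pos {n : ℕ} (hn : 0 < n) {k : ℕ} (hk : k < 2 * n) :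
    0 < Real.sin (rieszAngle n k / 2) := by
  have hn' : (0 : ℝ) < n := by exact_mod_cast hn
  have hk' : (k : ℝ) + 1 ≤ 2 * n := by exact_mod_cast hk
  apply Real.sin_pos_of_pos_of_lt_pi
  · unfold rieszAngle
    positivity
  · unfold rieszAngle
    rw [div_div, div_lt_iff₀ (by positivity)]
    nlinarith [Real.pi_pos]

/-- Consequence of the interpolation formula: a quantitative form of the Bernstein inequality
at `0`, keeping track of the values at the two nodes `± sin(π/(2n))` closest to `0`. -/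
theorem riesz_bound {n : ℕ} (hn : 0 < n) (Q : Polynomial ℝ) (hdeg : Q.natDegree ≤ n)
    (hQ : ∀ x : ℝ, |x| ≤ 1 → |Q.eval x| ≤ 1) :
    4 * (n : ℝ) * Q.derivative.eval 0 ≤ 4 * (n : ℝ) ^ 2
      - 1 / Real.sin (Real.pi / (4 * n)) ^ 2 *
        (2 - (Q.eval (Real.sin (Real.pi / (2 * n))) - Q.eval (-Real.sin (Real.pi / (2 * n))))) := by
  have hn' : (0 : ℝ) < n := by exact_mod_cast hn
  have hle : ∀ k ∈ range (2 * n),
      (-1 : ℝ) ^ k * Q.eval (Real.sin (rieszAngle n k)) / Real.sin (rieszAngle n k / 2) ^ 2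
        ≤ 1 / Real.sin (rieszAngle n k / 2) ^ 2 := by
    intro k hk
    have hpos := sin_half_rieszAngle_pos hn (Finset.mem_range.mp hk)
    apply div_le_div_of_nonneg_right _ (by positivity)
    have h1 := hQ (Real.sin (rieszAngle n k)) (Real.abs_sin_le_one _)
    have h2 : |(-1 : ℝ) ^ k * Q.eval (Real.sin (rieszAngle n k))| ≤ 1 := by
      rw [abs_mul, abs_pow, abs_neg, abs_one, one_pow, one_mul]
      exact h1
    exact (le_abs_self _).trans h2
  have hsum : ∑ k ∈ range (2 * n), (1 / Real.sin (rieszAngle n k / 2) ^ 2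
      - (-1 : ℝ) ^ k * Q.eval (Real.sin (rieszAngle n k)) / Real.sin (rieszAngle n k / 2) ^ 2)
      = 4 * (n : ℝ) ^ 2 - 4 * (n : ℝ) * Q.derivative.eval 0 := by
    rw [Finset.sum_sub_distrib, riesz_weight_sum hn, riesz_formula hn Q hdeg]
  have hsubset : ({0, 2 * n - 1} : Finset ℕ) ⊆ range (2 * n) := by
    intro k hk
    simp only [Finset.mem_insert, Finset.mem_singleton] at hk
    rw [Finset.mem_range]
    omega
  have hpair := Finset.sum_le_sum_of_subset_of_nonneg (f := fun k => 1 / Real.sin (rieszAngle n k / 2) ^ 2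
      - (-1 : ℝ) ^ k * Q.eval (Real.sin (rieszAngle n k)) / Real.sin (rieszAngle n k / 2) ^ 2)
      hsubset (fun k hk _ => sub_nonneg.mpr (hle k hk))
  rw [hsum, Finset.sum_pair (by omega)] at hpair
  have hA0 : rieszAngle n 0 = Real.pi / (2 * n) := by
    unfold rieszAngle
    simp
  have hA0' : rieszAngle n 0 / 2 = Real.pi / (4 * n) := by
    rw [hA0]
    field_simp
    ring
  have hcast : ((2 * n - 1 : ℕ) : ℝ) = 2 * (n : ℝ) - 1 := by
    rw [Nat.cast_sub (by omega)]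
    push_cast
    ring
  have hA1 : rieszAngle n (2 * n - 1) = 2 * Real.pi - Real.pi / (2 * n) := by
    unfold rieszAngle
    rw [hcast]
    field_simp
    ring
  have hA1' : rieszAngle n (2 * n - 1) / 2 = Real.pi - Real.pi / (4 * n) := by
    rw [hA1]
    field_simp
    ring
  have hodd : (-1 : ℝ) ^ (2 * n - 1) = -1 := Odd.neg_one_pow ⟨n - 1, by omega⟩
  rw [hA0', hA0, hA1', hA1, hodd, Real.sin_two_pi_sub, Real.sin_pi_sub] at hpair
  simp only [pow_zero] at hpair
  have e : 1 / Real.sin (Real.pi / (4 * n)) ^ 2 *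
      (2 - (Q.eval (Real.sin (Real.pi / (2 * n))) - Q.eval (-Real.sin (Real.pi / (2 * n)))))
      = 1 / Real.sin (Real.pi / (4 * ↑n)) ^ 2 -
        1 * eval (Real.sin (Real.pi / (2 * ↑n))) Q / Real.sin (Real.pi / (4 * ↑n)) ^ 2 +
      (1 / Real.sin (Real.pi / (4 * ↑n)) ^ 2 -
        -1 * eval (-Real.sin (Real.pi / (2 * ↑n))) Q / Real.sin (Real.pi / (4 * ↑n)) ^ 2) := by
    ring
  rw [e]
  linarith

end Vale.Agent.H39
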