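import Vale.Agent.H39.BiasPoly
import Vale.Agent.H39.Riesz
import Vale.Agent.H39.Integrate
import Vale.Agent.H39.Numerics

/-!
# An upper bound `(24/25) d` for the level-one sum of Boolean functions of degree `d` (seat H39)
-/

namespace Vale.Agent.H39

open Finset

section

variable {n : ℕ}

/-- The explicit bound for sign-valued functions. -/
theorem levelOne_le_explicit {F : (Fin n → Bool) → ℝ} (hF : ∀ x, F x = 1 ∨ F x = -1) {d : ℕ}
    (hd : 2 ≤ d) (hdeg : ∀ S : Finset (Fin n), d < S.card → coef F S = 0) :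
    ∑ i : Fin n, coef F {i}
      ≤ (d : ℝ) - 1 / ((d : ℝ) * Real.sin (Real.pi / (4 * d)) ^ 2
          * (1 + ((1 + Real.sin (Real.pi / (2 * d))) / (1 - Real.sin (Real.pi / (2 * d)))) ^ d)) := by
  obtain ⟨m, rfl⟩ : ∃ m, d = m + 1 := ⟨d - 1, by omega⟩
  have hd' : (2 : ℝ) ≤ ((m + 1 : ℕ) : ℝ) := by exact_mod_cast hd
  have hdpos : (0 : ℝ) < ((m + 1 : ℕ) : ℝ) := by linarith
  have hpi1 := Real.pi_gt_three
  have hpi2 := Real.pi_lt_d4
  set P := biasPoly F with hPdef
  have hnat : P.natDegree ≤ m + 1 := biasPoly_natDegree_le hdeg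
  have hP : ∀ ρ : ℝ, |ρ| ≤ 1 → |P.eval ρ| ≤ 1 := fun ρ hρ => abs_biasPoly_eval_le hF hρ
  have hode : ∀ ρ : ℝ, |ρ| < 1 →
      P.derivative.eval ρ * (1 - ρ ^ 2) ≤ ((m : ℝ) + 1) * (1 - (P.eval ρ) ^ 2) := by
    intro ρ hρ
    have h := bias_bernstein hF hdeg hρ.le
    have hσ : 0 ≤ 1 - ρ ^ 2 := by
      have := (sq_le_one_iff_abs_le_one ρ).mpr hρ.le
      linarith
    push_cast at h
    exact (mul_le_mul_of_nonneg_right (le_abs_self _) hσ).trans h
  set s : ℝ := Real.sin (Real.pi / (2 * ((m + 1 : ℕ) : ℝ))) with hs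
  have ht0 : 0 < Real.pi / (2 * ((m + 1 : ℕ) : ℝ)) := by positivity
  have ht1 : Real.pi / (2 * ((m + 1 : ℕ) : ℝ)) < 1 := by
    rw [div_lt_one (by positivity)]
    linarith
  have hs0 : 0 ≤ s := Real.sin_nonneg_of_nonneg_of_le_pi ht0.le (by linarith)
  have hs1 : s < 1 := lt_of_le_of_lt (Real.sin_le ht0.le) ht1
  have hB := ode_bound P m hP hode hs0 hs1
  have hR := riesz_bound (n := m + 1) (by omega) P hnat hP
  rw [← hs] at hR
  set E : ℝ := ((1 + s) / (1 - s)) ^ (m + 1) with hE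
  have hE1 : 1 ≤ E := by
    apply one_le_pow₀
    rw [le_div_iff₀ (by linarith)]
    linarith
  have hx0 : 0 < Real.pi / (4 * ((m + 1 : ℕ) : ℝ)) := by positivity
  have hxpi : Real.pi / (4 * ((m + 1 : ℕ) : ℝ)) < Real.pi := by
    rw [div_lt_iff₀ (by positivity)]
    nlinarith
  have hsin_pos : 0 < Real.sin (Real.pi / (4 * ((m + 1 : ℕ) : ℝ))) :=
    Real.sin_pos_of_pos_of_lt_pi hx0 hxpi
  set σ2 : ℝ := Real.sin (Real.pi / (4 * ((m + 1 : ℕ) : ℝ))) ^ 2 with hσ2
  have hσ2pos : 0 < σ2 := by positivity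
  rw [← biasPoly_derivative_eval_zero, ← hPdef]
  have h1 : 4 / (E + 1) ≤ 2 - (P.eval s - P.eval (-s)) := by
    rw [div_le_iff₀ (by linarith)]
    linarith
  have h2 : 1 / σ2 * (4 / (E + 1)) ≤ 1 / σ2 * (2 - (P.eval s - P.eval (-s))) :=
    mul_le_mul_of_nonneg_left h1 (by positivity)
  have h3 : 4 * ((m + 1 : ℕ) : ℝ) * P.derivative.eval 0
      ≤ 4 * ((m + 1 : ℕ) : ℝ) * (((m + 1 : ℕ) : ℝ) - 1 / (((m + 1 : ℕ) : ℝ) * σ2 * (1 + E))) := by
    have e : 4 * ((m + 1 : ℕ) : ℝ) * (((m + 1 : ℕ) : ℝ) - 1 / (((m + 1 : ℕ) : ℝ) * σ2 * (1 + E)))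
        = 4 * ((m + 1 : ℕ) : ℝ) ^ 2 - 1 / σ2 * (4 / (E + 1)) := by
      field_simp
      ring
    rw [e]
    linarith
  exact le_of_mul_le_mul_left h3 (by positivity)

/-- The uniform bound `(24/25) d` for sign-valued functions. -/
theorem levelOne_le {F : (Fin n → Bool) → ℝ} (hF : ∀ x, F x = 1 ∨ F x = -1) {d : ℕ}
    (hd : 2 ≤ d) (hdeg : ∀ S : Finset (Fin n), d < S.card → coef F S = 0) :
    ∑ i : Fin n, coef F {i} ≤ 24 / 25 * (d : ℝ) := by
  have h := levelOne_le_explicit hF hd hdeg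
  have hEb := E_bound hd
  have hd' : (2 : ℝ) ≤ d := by exact_mod_cast hd
  have hpi2 := Real.pi_lt_d4
  have ht0 : 0 < Real.pi / (2 * (d : ℝ)) := by positivity
  have ht1 : Real.pi / (2 * (d : ℝ)) < 1 := by
    rw [div_lt_one (by positivity)]
    linarith
  have hs0 : 0 ≤ Real.sin (Real.pi / (2 * (d : ℝ))) :=
    Real.sin_nonneg_of_nonneg_of_le_pi ht0.le (by linarith [Real.pi_gt_three])
  have hs1 : Real.sin (Real.pi / (2 * (d : ℝ))) < 1 := lt_of_le_of_lt (Real.sin_le ht0.le) ht1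
  have hE0 : 0 ≤ ((1 + Real.sin (Real.pi / (2 * d))) / (1 - Real.sin (Real.pi / (2 * d)))) ^ d := by
    apply pow_nonneg
    apply div_nonneg <;> linarith
  have hg := gain_bound hd hE0 hEb
  linarith

/-- Flipping the bits of `x` at the coordinates marked by `z`. -/
def flipCube (z : Fin n → Bool) (x : Fin n → Bool) : Fin n → Bool := fun i => xor (x i) (z i)

lemma flipCube_involutive (z : Fin n → Bool) : Function.Involutive (flipCube z) := by
  intro x
  funext i
  simp [flipCube]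

lemma bsign_xor (a b : Bool) : bsign (xor a b) = bsign a * bsign b := by
  cases a <;> cases b <;> simp

lemma coef_flip (F : (Fin n → Bool) → ℝ) (z : Fin n → Bool) (S : Finset (Fin n)) :
    coef (fun x => F (flipCube z x)) S = (∏ i ∈ S, bsign (z i)) * coef F S := by
  unfold coef
  rw [← mul_div_assoc, Finset.mul_sum]
  congr 1
  have h := Equiv.sum_comp (flipCube_involutive z).toPerm
    (fun y => F y * chi S (flipCube z y))
  simp only [Function.Involutive.coe_toPerm] at h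
  have h2 : ∀ x : Fin n → Bool, F (flipCube z x) * chi S (flipCube z (flipCube z x))
      = F (flipCube z x) * chi S x := by
    intro x
    rw [flipCube_involutive z x]
  simp_rw [h2] at h
  rw [h]
  apply Finset.sum_congr rfl
  intro y _
  have h3 : chi S (flipCube z y) = chi S y * ∏ i ∈ S, bsign (z i) := by
    unfold chi flipCube
    rw [← Finset.prod_mul_distrib]
    apply Finset.prod_congr rfl
    intro i _
    exact bsign_xor _ _
  rw [h3]
  ring

/-- **Level-one bound with absolute values** for a Boolean function of degree at most `d ≥ 2`. -/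
theorem sum_abs_fhat_le {d : ℕ} (hd : 2 ≤ d) (f : (Fin n → Bool) → Bool)
    (hdeg : ∀ S : Finset (Fin n), d < S.card → fhat f S = 0) :
    ∑ i : Fin n, |fhat f {i}|
        ≤ (d : ℝ) - 1 / ((d : ℝ) * Real.sin (Real.pi / (4 * d)) ^ 2
          * (1 + ((1 + Real.sin (Real.pi / (2 * d))) / (1 - Real.sin (Real.pi / (2 * d)))) ^ d))
      ∧ ∑ i : Fin n, |fhat f {i}| ≤ 24 / 25 * (d : ℝ) := by
  classical
  set z : Fin n → Bool := fun i => decide (fhat f {i} < 0) with hz
  set G : (Fin n → Bool) → ℝ := fun x => bsign (f (flipCube z x)) with hG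
  have hGval : ∀ x, G x = 1 ∨ G x = -1 := by
    intro x
    simp only [hG]
    cases f (flipCube z x) <;> simp
  have hGcoef : ∀ S : Finset (Fin n), coef G S = (∏ i ∈ S, bsign (z i)) * fhat f S := by
    intro S
    rw [fhat_eq_coef]
    exact coef_flip (fun x => bsign (f x)) z S
  have hGdeg : ∀ S : Finset (Fin n), d < S.card → coef G S = 0 := by
    intro S hS
    rw [hGcoef, hdeg S hS, mul_zero]
  have hsum : ∑ i : Fin n, |fhat f {i}| = ∑ i : Fin n, coef G {i} := by
    apply Finset.sum_congr rfl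
    intro i _
    rw [hGcoef, Finset.prod_singleton]
    by_cases h : fhat f {i} < 0
    · have hzi : z i = true := by simp [hz, h]
      rw [hzi, abs_of_neg h]
      simp
    · have hzi : z i = false := by simp [hz, h]
      rw [hzi, abs_of_nonneg (not_lt.mp h)]
      simp
  rw [hsum]
  exact ⟨levelOne_le_explicit hGval hd hGdeg, levelOne_le hGval hd hGdeg⟩

end

end Vale.Agent.H39
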