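import Vale.Agent.H26.GSConj

/-!
# P047: the statement of the hand-in on the tensor-power equivalence follows from its `fhat` form

`tensor_of_fhat_form`: the statement of `Vale.Agent.H26.GSConj.c_fhat` (conjunct 14 of the
hand-ins `A0_SharpFourUnateSubcubes` and `A1_SharpFourUnatePartitions`) implies the statement
of the hand-in `E_TensorPower` (formerly `C_TensorPower`), which is written with the degree
function `deg` of seat H46.  So that hand-in's statement is contained in conjunct 14.
-/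

namespace Vale.Agent.H39

open Vale.Agent.H46 Vale.Agent.H26.GSConj

theorem tensor_of_fhat_form
    (h : (∃ C : ℝ, ∀ (n d : ℕ) (f : (Fin n → Bool) → Bool),
        (∀ S : Finset (Fin n), d < S.card → fhat f S = 0) →
        ∑ i : Fin n, fhat f {i} ≤ C * Real.sqrt d) ↔
      ∀ (n d : ℕ) (f : (Fin n → Bool) → Bool),
        (∀ S : Finset (Fin n), d < S.card → fhat f S = 0) →
        ((fhat f ∅ = 0 ∨ Odd d) → ∑ i : Fin n, fhat f {i} + |fhat f ∅| ≤ Real.sqrt d) ∧
        ∑ i : Fin n, fhat f {i} + |fhat f ∅| ≤ Real.sqrt (d + 1)) :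
    (∃ C : ℝ, ∀ (n : ℕ) (f : (Fin n → Bool) → Bool), levelOne f ≤ C * Real.sqrt (deg f)) ↔
    ∀ (n : ℕ) (f : (Fin n → Bool) → Bool),
      ((fourier f ∅ = 0 ∨ Odd (deg f)) →
          levelOne f + |fourier f ∅| ≤ Real.sqrt (deg f)) ∧
      levelOne f + |fourier f ∅| ≤ Real.sqrt (deg f + 1) := by
  constructor
  · rintro ⟨C, hC⟩
    have hleft : ∃ C : ℝ, ∀ (n d : ℕ) (f : (Fin n → Bool) → Bool),
        (∀ S : Finset (Fin n), d < S.card → fhat f S = 0) →
        ∑ i : Fin n, fhat f {i} ≤ C * Real.sqrt d := by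
      refine ⟨max C 0, fun n d f hv => ?_⟩
      have hdeg : deg f ≤ d := (deg_le_iff_fhat f d).mpr hv
      have hdegR : ((deg f : ℕ) : ℝ) ≤ (d : ℝ) := by exact_mod_cast hdeg
      have h1 := hC n f
      rw [levelOne_eq_fhat] at h1
      calc ∑ i : Fin n, fhat f {i} ≤ C * Real.sqrt (deg f) := h1
        _ ≤ max C 0 * Real.sqrt (deg f) :=
            mul_le_mul_of_nonneg_right (le_max_left _ _) (Real.sqrt_nonneg _)
        _ ≤ max C 0 * Real.sqrt d :=
            mul_le_mul_of_nonneg_left (Real.sqrt_le_sqrt hdegR) (le_max_right _ _)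
    have H := h.mp hleft
    intro n f
    have := H n (deg f) f ((deg_le_iff_fhat f (deg f)).mp le_rfl)
    rw [levelOne_eq_fhat, fourier_eq_fhat]
    exact this
  · intro H
    have hright : ∀ (n d : ℕ) (f : (Fin n → Bool) → Bool),
        (∀ S : Finset (Fin n), d < S.card → fhat f S = 0) →
        ((fhat f ∅ = 0 ∨ Odd d) → ∑ i : Fin n, fhat f {i} + |fhat f ∅| ≤ Real.sqrt d) ∧
        ∑ i : Fin n, fhat f {i} + |fhat f ∅| ≤ Real.sqrt (d + 1) := by
      intro n d f hv
      have hdeg : deg f ≤ d := (deg_le_iff_fhat f d).mpr hv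
      have hdegR : ((deg f : ℕ) : ℝ) ≤ (d : ℝ) := by exact_mod_cast hdeg
      obtain ⟨H1, H2⟩ := H n f
      rw [levelOne_eq_fhat, fourier_eq_fhat] at H1 H2
      refine ⟨?_, ?_⟩
      · rintro (h0 | hodd)
        · exact (H1 (Or.inl h0)).trans (Real.sqrt_le_sqrt hdegR)
        · rcases Nat.lt_or_ge (deg f) d with hlt | hge
          · refine H2.trans (Real.sqrt_le_sqrt ?_)
            have : ((deg f : ℕ) : ℝ) + 1 ≤ (d : ℝ) := by exact_mod_cast hlt
            exact this
          · have heq : deg f = d := le_antisymm hdeg hge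
            have := H1 (Or.inr (heq ▸ hodd))
            rw [heq] at this
            exact this
      · refine H2.trans (Real.sqrt_le_sqrt ?_)
        linarith
    obtain ⟨C, hC⟩ := h.mpr hright
    refine ⟨C, fun n f => ?_⟩
    rw [levelOne_eq_fhat]
    exact hC n (deg f) f ((deg_le_iff_fhat f (deg f)).mp le_rfl)

end Vale.Agent.H39
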